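import Mathlib

/-!
# P064 job J5a: the double-counting step for the subset potential
-/

namespace Vale.Agent.Lib.P064

open Finset

theorem G_step {V : Type*} [DecidableEq V] (s : Finset V) (a : ℝ) (ha : 0 ≤ a) (Wt : V → ℝ)
    (hW : ∀ v, 0 ≤ Wt v) :
    ∑ z ∈ s, a * Wt z * ∑ A ∈ (s.erase z).powerset,
        (A.card.factorial : ℝ) * a ^ A.card * ∏ u ∈ A, Wt u
      ≤ ∑ A ∈ s.powerset, (A.card.factorial : ℝ) * a ^ A.card * ∏ u ∈ A, Wt u := by
  have h1 : ∀ z ∈ s, a * Wt z * ∑ A ∈ (s.erase z).powerset,
        (A.card.factorial : ℝ) * a ^ A.card * ∏ u ∈ A, Wt u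
      = ∑ A ∈ s.powerset.filter (fun A => z ∈ A),
        (((A.card - 1).factorial : ℕ) : ℝ) * a ^ A.card * ∏ u ∈ A, Wt u := by
    intro z hz
    rw [Finset.mul_sum]
    refine Finset.sum_bij' (fun A _ => insert z A) (fun A _ => A.erase z) ?_ ?_ ?_ ?_ ?_
    · intro A hA
      rw [mem_powerset] at hA
      rw [mem_filter, mem_powerset]
      refine ⟨?_, mem_insert_self z A⟩
      intro x hx
      rcases mem_insert.1 hx with rfl | hx
      · exact hz
      · exact mem_of_mem_erase (hA hx)
    · intro A hA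
      rw [mem_filter, mem_powerset] at hA
      rw [mem_powerset]
      exact erase_subset_erase z hA.1
    · intro A hA
      rw [mem_powerset] at hA
      have hzA : z ∉ A := fun h => notMem_erase z s (hA h)
      exact erase_insert hzA
    · intro A hA
      rw [mem_filter] at hA
      exact insert_erase hA.2
    · intro A hA
      rw [mem_powerset] at hA
      have hzA : z ∉ A := fun h => notMem_erase z s (hA h)
      rw [card_insert_of_notMem hzA, prod_insert hzA, Nat.add_sub_cancel]
      ring
  rw [Finset.sum_congr rfl h1]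
  rw [Finset.sum_comm' (t' := s.powerset) (s' := fun A => A)]
  · apply Finset.sum_le_sum
    intro A _
    rw [Finset.sum_const, nsmul_eq_mul]
    have hprod : 0 ≤ ∏ u ∈ A, Wt u := Finset.prod_nonneg (fun u _ => hW u)
    have hpow : 0 ≤ a ^ A.card := pow_nonneg ha _
    rcases Nat.eq_zero_or_pos A.card with h0 | hpos
    · rw [h0]
      simp only [Nat.cast_zero, zero_mul]
      positivity
    · obtain ⟨n, hn⟩ : ∃ n, A.card = n + 1 := ⟨A.card - 1, by omega⟩
      rw [hn, Nat.add_sub_cancel, Nat.factorial_succ]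
      push_cast
      apply le_of_eq
      ring
  · intro z A
    rw [mem_filter, mem_powerset]
    constructor
    · rintro ⟨_, hA, hzA⟩
      exact ⟨hzA, hA⟩
    · rintro ⟨hzA, hA⟩
      exact ⟨hA hzA, hA, hzA⟩

end Vale.Agent.Lib.P064
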