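import Mathlib
import Vale.Agent.KK.Forest
import Vale.Agent.Lib.P064.helper36.GStep

/-!
# P064 job J5b: counting copies of a forest in a rooted forest through a potential
-/

namespace Vale.Agent.Lib.P064

open Finset SimpleGraph

namespace CC

theorem sum_le_sum_of_inj {α β : Type*} (S : Finset α) (T : Finset β) (ι : α → β)
    (hι : Function.Injective ι) (hmap : ∀ x ∈ S, ι x ∈ T) (g : α → ℝ) (h : β → ℝ)
    (hgh : ∀ x ∈ S, g x ≤ h (ι x)) (hh : ∀ y ∈ T, 0 ≤ h y) :
    ∑ x ∈ S, g x ≤ ∑ y ∈ T, h y := by
  classical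
  calc ∑ x ∈ S, g x ≤ ∑ x ∈ S, h (ι x) := Finset.sum_le_sum hgh
    _ = ∑ y ∈ S.image ι, h y := by
        rw [Finset.sum_image]
        intro x _ y _ hxy
        exact hι hxy
    _ ≤ ∑ y ∈ T, h y := by
        apply Finset.sum_le_sum_of_subset_of_nonneg
        · intro y hy
          obtain ⟨x, hx, rfl⟩ := mem_image.1 hy
          exact hmap x hx
        · intro y hy _
          exact hh y hy

section defs

set_option linter.unusedSectionVars false

variable {V : Type*} [Fintype V] [DecidableEq V]

/-- The subset potential of a finite set of vertices. -/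
noncomputable def Gs (a : ℝ) (Wt : V → ℝ) (s : Finset V) : ℝ :=
  ∑ A ∈ s.powerset, (A.card.factorial : ℝ) * a ^ A.card * ∏ u ∈ A, Wt u

theorem Gs_one_le (a : ℝ) (ha : 0 ≤ a) (Wt : V → ℝ) (hW : ∀ v, 0 ≤ Wt v) (s : Finset V) :
    1 ≤ Gs a Wt s := by
  unfold Gs
  have h := Finset.single_le_sum
    (f := fun A : Finset V => (A.card.factorial : ℝ) * a ^ A.card * ∏ u ∈ A, Wt u)
    (s := s.powerset) (fun A _ => by
      have : 0 ≤ ∏ u ∈ A, Wt u := Finset.prod_nonneg (fun u _ => hW u)
      positivity) (empty_mem_powerset s)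
  simpa using h

theorem Gs_mono (a : ℝ) (ha : 0 ≤ a) (Wt : V → ℝ) (hW : ∀ v, 0 ≤ Wt v) {s t : Finset V}
    (hst : s ⊆ t) : Gs a Wt s ≤ Gs a Wt t := by
  unfold Gs
  apply Finset.sum_le_sum_of_subset_of_nonneg (powerset_mono.2 hst)
  intro A _ _
  have : 0 ≤ ∏ u ∈ A, Wt u := Finset.prod_nonneg (fun u _ => hW u)
  positivity

theorem Gs_step (a : ℝ) (ha : 0 < a) (Wt : V → ℝ) (hW : ∀ v, 0 ≤ Wt v) (s : Finset V) :
    ∑ z ∈ s, Wt z * Gs a Wt (s.erase z) ≤ (1 / a) * Gs a Wt s := by
  have h : ∑ z ∈ s, a * Wt z * Gs a Wt (s.erase z) ≤ Gs a Wt s := G_step s a ha.le Wt hW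
  rw [one_div, inv_mul_eq_div, le_div_iff₀ ha]
  calc (∑ z ∈ s, Wt z * Gs a Wt (s.erase z)) * a
      = ∑ z ∈ s, a * Wt z * Gs a Wt (s.erase z) := by
        rw [Finset.sum_mul]
        apply Finset.sum_congr rfl
        intro z _
        ring
    _ ≤ Gs a Wt s := h

variable (par : V → Option V)

/-- `x` has a neighbour whose image is the parent of the image of `x`. -/
def up {W : Type*} (F : SimpleGraph W) (f : W → V) (x : W) : Prop :=
  ∃ y, F.Adj x y ∧ par (f x) = some (f y)

/-- Children of the image of `x` that are not images of neighbours of `x`. -/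
noncomputable def avail {W : Type*} (F : SimpleGraph W) (f : W → V) (x : W) : Finset V :=
  @Finset.filter V (fun z => ∀ y, F.Adj x y → f y ≠ z) (Classical.decPred _)
    (Finset.univ.filter (fun u => par u = some (f x)))

theorem avail_subset {W : Type*} (F : SimpleGraph W) (f : W → V) (x : W) :
    avail par F f x ⊆ Finset.univ.filter (fun u => par u = some (f x)) := by
  intro z hz
  simp only [avail, Finset.mem_filter] at hz
  simp only [Finset.mem_filter]
  exact hz.1

/-- The potential of a map. -/
noncomputable def Psi (a : ℝ) (Wt : V → ℝ) {W : Type*} [Fintype W] (F : SimpleGraph W)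
    (f : W → V) : ℝ :=
  ∏ x, Gs a Wt (avail par F f x)

theorem Psi_one_le (a : ℝ) (ha : 0 ≤ a) (Wt : V → ℝ) (hW : ∀ v, 0 ≤ Wt v) {W : Type*}
    [Fintype W] (F : SimpleGraph W) (f : W → V) : 1 ≤ Psi par a Wt F f := by
  unfold Psi
  have h := Finset.prod_le_prod (s := (Finset.univ : Finset W)) (f := fun _ => (1 : ℝ))
    (g := fun x => Gs a Wt (avail par F f x)) (fun _ _ => zero_le_one)
    (fun x _ => Gs_one_le a ha Wt hW _)
  simpa using h

theorem up_restrict {W : Type*} (F : SimpleGraph W) (f : W → V) (w : W)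
    (x : ({w}ᶜ : Set W)) (hx : ¬ (F.Adj x.1 w ∧ par (f x.1) = some (f w))) :
    up par F f x.1 ↔ up par (F.induce ({w}ᶜ : Set W)) (fun y => f y.1) x := by
  constructor
  · rintro ⟨y, hadj, hpar⟩
    have hyw : y ≠ w := by
      rintro rfl
      exact hx ⟨hadj, hpar⟩
    exact ⟨⟨y, hyw⟩, hadj, hpar⟩
  · rintro ⟨y, hadj, hpar⟩
    exact ⟨y.1, hadj, hpar⟩

theorem avail_restrict {W : Type*} (F : SimpleGraph W) (f : W → V) (w : W)
    (x : ({w}ᶜ : Set W)) (hx : ¬ F.Adj x.1 w) :
    avail par F f x.1 = avail par (F.induce ({w}ᶜ : Set W)) (fun y => f y.1) x := by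
  classical
  ext z
  simp only [avail, mem_filter, mem_univ, true_and]
  constructor
  · rintro ⟨h1, h2⟩
    exact ⟨h1, fun y hy => h2 y.1 hy⟩
  · rintro ⟨h1, h2⟩
    refine ⟨h1, fun y hy => ?_⟩
    have hyw : y ≠ w := by
      rintro rfl
      exact hx hy
    exact h2 ⟨y, hyw⟩ hy

theorem avail_restrict_erase {W : Type*} (F : SimpleGraph W) (f : W → V) (w : W)
    (u : ({w}ᶜ : Set W)) (hu : F.Adj u.1 w) :
    avail par F f u.1 =
      (avail par (F.induce ({w}ᶜ : Set W)) (fun y => f y.1) u).erase (f w) := by
  classical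
  ext z
  simp only [avail, mem_filter, mem_univ, true_and, mem_erase]
  constructor
  · rintro ⟨h1, h2⟩
    exact ⟨fun h => h2 w hu h.symm, h1, fun y hy => h2 y.1 hy⟩
  · rintro ⟨hz, h1, h2⟩
    refine ⟨h1, fun y hy => ?_⟩
    by_cases hyw : y = w
    · subst hyw
      exact fun h => hz h.symm
    · exact h2 ⟨y, hyw⟩ hy

theorem prod_split {W : Type*} [Fintype W] [DecidableEq W] (w : W)
    [Fintype ({w}ᶜ : Set W)] (g : W → ℝ) :
    ∏ x, g x = g w * ∏ x : ({w}ᶜ : Set W), g x.1 := by
  rw [Fintype.prod_eq_mul_prod_compl w g]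
  congr 1
  exact Finset.prod_subtype _ (fun x => by simp) g

theorem restrict_coe {W : Type*} (H : SimpleGraph V) (F : SimpleGraph W) (w : W)
    (φ : Copy F H) :
    (⇑(Vale.Agent.KK.restrictCopy H F w φ).1 : ({w}ᶜ : Set W) → V) = fun y => φ y.1 := by
  funext y
  rfl

theorem main_claim (H : SimpleGraph V) (d : V → ℕ)
    (hd : ∀ u v, par u = some v → d u = d v + 1)
    (hH : ∀ u v, H.Adj u v ↔ (par u = some v ∨ par v = some u))
    (a : ℝ) (ha : 0 < a) (Wt : V → ℝ) (hW0 : ∀ v, 0 ≤ Wt v)
    (hsup : ∀ v, ∑ A ∈ (Finset.univ.filter (fun u => par u = some v)).powerset,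
        (A.card.factorial : ℝ) * a ^ A.card * ∏ u ∈ A, Wt u ≤ Wt v) :
    ∀ (m : ℕ) (W : Type) [Fintype W] (F : SimpleGraph W), Fintype.card W = m → F.IsAcyclic →
      F.edgeSet.ncard ≤ m ∧ ∀ (U : W → Prop) (S : Finset (Copy F H)),
        (∀ φ ∈ S, ∀ x, up par F φ x ↔ U x) →
        ∑ φ ∈ S, Psi par a Wt F φ ≤
          (1 / a) ^ F.edgeSet.ncard * (∑ v, Wt v) ^ (m - F.edgeSet.ncard) := by
  intro m
  induction m with
  | zero =>
    intro W _ F hW hF
    have hemp : IsEmpty W := Fintype.card_eq_zero_iff.1 hW
    have he : F.edgeSet = ∅ := by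
      ext e
      induction e using Sym2.ind with
      | _ x y => exact isEmptyElim x
    refine ⟨by rw [he]; simp, ?_⟩
    intro U S _
    have hsub : Subsingleton (Copy F H) :=
      ⟨fun x y => DFunLike.ext _ _ (fun w => isEmptyElim w)⟩
    have hcard : S.card ≤ 1 := Finset.card_le_one_of_subsingleton S
    have hPsi : ∀ φ ∈ S, Psi par a Wt F φ = 1 := by
      intro φ _
      unfold Psi
      simp
    rw [Finset.sum_congr rfl hPsi, he]
    simp only [sum_const, nsmul_eq_mul, mul_one, Set.ncard_empty, pow_zero, Nat.sub_zero]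
    exact_mod_cast hcard
  | succ m ih =>
    intro W _ F hW hF
    classical
    have hB : 0 ≤ ∑ v, Wt v := Finset.sum_nonneg (fun v _ => hW0 v)
    have ha' : 0 ≤ 1 / a := by positivity
    have hcard : ∀ w : W, Fintype.card (({w}ᶜ : Set W)) = m := by
      intro w
      rw [Fintype.card_compl_set]
      simp [hW]
    have hedge : ∀ w : W, (F.induce ({w}ᶜ : Set W)).edgeSet.ncard =
        F.edgeSet.ncard - F.degree w :=
      fun w => Vale.Agent.KK.ncard_edgeSet_induce_compl_singleton F w
    have hPsi : ∀ (w : W) (φ : Copy F H), Psi par a Wt F φ =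
        Gs a Wt (avail par F φ w) * ∏ x : ({w}ᶜ : Set W), Gs a Wt (avail par F φ x.1) :=
      fun w φ => prod_split w _
    have hGw : ∀ (w : W) (φ : Copy F H), Gs a Wt (avail par F φ w) ≤ Wt (φ w) := by
      intro w φ
      exact le_trans (Gs_mono a ha.le Wt hW0 (avail_subset par F φ w)) (hsup (φ w))
    have hG0 : ∀ s : Finset V, 0 ≤ Gs a Wt s :=
      fun s => le_trans zero_le_one (Gs_one_le a ha.le Wt hW0 s)
    have hPsi0 : ∀ (w : W) (φ' : Copy (F.induce ({w}ᶜ : Set W)) H),
        0 ≤ Psi par a Wt (F.induce ({w}ᶜ : Set W)) φ' :=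
      fun w φ' => le_trans zero_le_one (Psi_one_le par a ha.le Wt hW0 _ _)
    by_cases hiso : ∃ v, ∀ x, ¬F.Adj v x
    · obtain ⟨w, hw⟩ := hiso
      obtain ⟨hle, hS⟩ := ih _ (F.induce ({w}ᶜ : Set W)) (hcard w) (hF.induce _)
      have hdeg : F.degree w = 0 := by
        rw [← card_neighborFinset_eq_degree, card_eq_zero]
        ext x
        simp [hw x]
      have he := hedge w
      rw [hdeg, Nat.sub_zero] at he
      rw [he] at hle hS
      refine ⟨by omega, ?_⟩
      intro U S hSU
      have hrS : ∀ φ ∈ S, ∀ x : ({w}ᶜ : Set W),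
          up par (F.induce ({w}ᶜ : Set W)) (Vale.Agent.KK.restrictCopy H F w φ).1 x ↔ U x.1 := by
        intro φ hφ x
        rw [← hSU φ hφ x.1, restrict_coe]
        exact (up_restrict par F φ w x (fun h => hw x.1 h.1.symm)).symm
      have key := hS (fun x => U x.1)
        (S.image (fun φ => (Vale.Agent.KK.restrictCopy H F w φ).1)) (by
          intro φ' hφ' x
          obtain ⟨φ, hφ, rfl⟩ := mem_image.1 hφ'
          exact hrS φ hφ x)
      calc ∑ φ ∈ S, Psi par a Wt F φ
          ≤ ∑ p ∈ (S.image (fun φ => (Vale.Agent.KK.restrictCopy H F w φ).1)) ×ˢ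
              (univ : Finset V), Psi par a Wt (F.induce ({w}ᶜ : Set W)) p.1 * Wt p.2 := by
            apply sum_le_sum_of_inj S _ (Vale.Agent.KK.restrictCopy H F w)
              (Vale.Agent.KK.restrictCopy_injective H F w)
            · intro φ hφ
              rw [mem_product]
              exact ⟨mem_image_of_mem _ hφ, mem_univ _⟩
            · intro φ hφ
              have h1 : ∏ x : ({w}ᶜ : Set W), Gs a Wt (avail par F φ x.1) =
                  Psi par a Wt (F.induce ({w}ᶜ : Set W))
                    (Vale.Agent.KK.restrictCopy H F w φ).1 := by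
                unfold Psi
                apply Finset.prod_congr rfl
                intro x _
                rw [avail_restrict par F φ w x (fun h => hw x.1 h.symm), restrict_coe]
              rw [hPsi w φ, h1, mul_comm]
              exact mul_le_mul_of_nonneg_left (hGw w φ) (hPsi0 w _)
            · intro p _
              exact mul_nonneg (hPsi0 w _) (hW0 _)
        _ = (∑ φ' ∈ S.image (fun φ => (Vale.Agent.KK.restrictCopy H F w φ).1),
              Psi par a Wt (F.induce ({w}ᶜ : Set W)) φ') * ∑ v, Wt v := by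
            rw [Finset.sum_product, Finset.sum_mul_sum]
        _ ≤ ((1 / a) ^ F.edgeSet.ncard * (∑ v, Wt v) ^ (m - F.edgeSet.ncard)) * ∑ v, Wt v :=
            mul_le_mul_of_nonneg_right key hB
        _ = (1 / a) ^ F.edgeSet.ncard * (∑ v, Wt v) ^ (m + 1 - F.edgeSet.ncard) := by
            rw [mul_assoc, ← pow_succ]
            congr 2
            omega
    · push Not at hiso
      have hW' : Nonempty W := by
        rw [← Fintype.card_pos_iff]
        omega
      obtain ⟨w0⟩ := hW'
      obtain ⟨w1, hw1⟩ := hiso w0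
      obtain ⟨v, u0, hvu, hleaf⟩ :=
        Vale.Agent.KK.exists_leaf_of_isAcyclic hF ⟨w0, w1, hw1⟩
      have hepos : 1 ≤ F.edgeSet.ncard := by
        rw [Nat.one_le_iff_ne_zero, Ne, Set.ncard_eq_zero (Set.toFinite _)]
        intro h0
        have : s(v, u0) ∈ F.edgeSet := hvu
        rw [h0] at this
        exact this
      have hdeg1 : ∀ w u, F.Adj w u → (∀ x, F.Adj w x → x = u) → F.degree w = 1 := by
        intro w u hwu hl
        rw [degree_eq_one_iff_existsUnique_adj]
        exact ⟨u, hwu, fun y hy => hl y hy⟩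
      have hle : F.edgeSet.ncard ≤ m + 1 := by
        obtain ⟨hle', _⟩ := ih _ (F.induce ({v}ᶜ : Set W)) (hcard v) (hF.induce _)
        have he := hedge v
        rw [hdeg1 v u0 hvu hleaf] at he
        omega
      refine ⟨hle, ?_⟩
      intro U S hSU
      rcases S.eq_empty_or_nonempty with hSe | ⟨φ0, hφ0⟩
      · rw [hSe, Finset.sum_empty]
        positivity
      have hex : ∃ x, up par F φ0 x := by
        have hadj : H.Adj (φ0 w0) (φ0 w1) := φ0.toHom.map_adj hw1
        rcases (hH _ _).1 hadj with h | h
        · exact ⟨w0, w1, hw1, h⟩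
        · exact ⟨w1, w0, hw1.symm, h⟩
      obtain ⟨w, hwmem, hwmax⟩ := Finset.exists_max_image
        (univ.filter (fun x => up par F φ0 x)) (fun x => d (φ0 x)) (by
          obtain ⟨x, hx⟩ := hex
          exact ⟨x, by simp [hx]⟩)
      have hupw : up par F φ0 w := (mem_filter.1 hwmem).2
      obtain ⟨u, hwu, hparw⟩ := hupw
      have hleafw : ∀ y, F.Adj w y → y = u := by
        intro y hy
        have hadj : H.Adj (φ0 w) (φ0 y) := φ0.toHom.map_adj hy
        rcases (hH _ _).1 hadj with h | h
        · have h3 : φ0 y = φ0 u := by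
            rw [hparw] at h
            exact (Option.some.inj h).symm
          exact φ0.injective h3
        · exfalso
          have hupy : up par F φ0 y := ⟨w, hy.symm, h⟩
          have h1 := hwmax y (by simp [hupy])
          have h2 := hd _ _ h
          omega
      have hUw : U w := (hSU φ0 hφ0 w).1 ⟨u, hwu, hparw⟩
      have hparφ : ∀ φ ∈ S, par (φ w) = some (φ u) := by
        intro φ hφ
        obtain ⟨y, hy, hp⟩ := (hSU φ hφ w).2 hUw
        rw [hleafw y hy] at hp
        exact hp
      have huw : u ≠ w := hwu.ne'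
      obtain ⟨hle', hS⟩ := ih _ (F.induce ({w}ᶜ : Set W)) (hcard w) (hF.induce _)
      have he := hedge w
      rw [hdeg1 w u hwu hleafw] at he
      rw [he] at hS
      have hnotwit : ∀ φ ∈ S, ∀ x : ({w}ᶜ : Set W),
          ¬(F.Adj x.1 w ∧ par (φ x.1) = some (φ w)) := by
        rintro φ hφ x ⟨hadj, hp⟩
        have hxu : x.1 = u := hleafw x.1 hadj.symm
        rw [hxu] at hp
        have h1 := hd _ _ hp
        have h2 := hd _ _ (hparφ φ hφ)
        omega
      have hrS : ∀ φ ∈ S, ∀ x : ({w}ᶜ : Set W),
          up par (F.induce ({w}ᶜ : Set W)) (Vale.Agent.KK.restrictCopy H F w φ).1 x ↔ U x.1 := by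
        intro φ hφ x
        rw [← hSU φ hφ x.1, restrict_coe]
        exact (up_restrict par F φ w x (hnotwit φ hφ x)).symm
      have key := hS (fun x => U x.1)
        (S.image (fun φ => (Vale.Agent.KK.restrictCopy H F w φ).1)) (by
          intro φ' hφ' x
          obtain ⟨φ, hφ, rfl⟩ := mem_image.1 hφ'
          exact hrS φ hφ x)
      set F' := F.induce ({w}ᶜ : Set W) with hF'
      set u' : ({w}ᶜ : Set W) := ⟨u, huw⟩ with hu'
      set hfun : Copy F' H × V → ℝ := fun p =>
        (∏ x ∈ (univ : Finset ({w}ᶜ : Set W)).erase u', Gs a Wt (avail par F' p.1 x)) *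
          (Wt p.2 * Gs a Wt ((avail par F' p.1 u').erase p.2)) with hhfun
      have hprod0 : ∀ φ' : Copy F' H,
          0 ≤ ∏ x ∈ (univ : Finset ({w}ᶜ : Set W)).erase u', Gs a Wt (avail par F' φ' x) :=
        fun φ' => Finset.prod_nonneg (fun x _ => hG0 _)
      calc ∑ φ ∈ S, Psi par a Wt F φ
          ≤ ∑ p ∈ ((S.image (fun φ => (Vale.Agent.KK.restrictCopy H F w φ).1)) ×ˢ
              (univ : Finset V)).filter (fun p => p.2 ∈ avail par F' p.1 u'), hfun p := by
            apply sum_le_sum_of_inj S _ (Vale.Agent.KK.restrictCopy H F w)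
              (Vale.Agent.KK.restrictCopy_injective H F w)
            · intro φ hφ
              rw [mem_filter, mem_product]
              refine ⟨⟨mem_image_of_mem _ hφ, mem_univ _⟩, ?_⟩
              rw [restrict_coe]
              simp only [avail, mem_filter, mem_univ, true_and]
              refine ⟨hparφ φ hφ, fun y _ hy => ?_⟩
              exact y.2 (φ.injective hy)
            · intro φ hφ
              have h1 : ∏ x : ({w}ᶜ : Set W), Gs a Wt (avail par F φ x.1) =
                  Gs a Wt (avail par F φ u) *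
                    ∏ x ∈ (univ : Finset ({w}ᶜ : Set W)).erase u',
                      Gs a Wt (avail par F φ x.1) := by
                rw [← Finset.mul_prod_erase univ _ (mem_univ u')]
              have h2 : ∏ x ∈ (univ : Finset ({w}ᶜ : Set W)).erase u',
                    Gs a Wt (avail par F φ x.1) =
                  ∏ x ∈ (univ : Finset ({w}ᶜ : Set W)).erase u',
                    Gs a Wt (avail par F' (Vale.Agent.KK.restrictCopy H F w φ).1 x) := by
                apply Finset.prod_congr rfl
                intro x hx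
                have hxu : x ≠ u' := (mem_erase.1 hx).1
                have hnadj : ¬F.Adj x.1 w := by
                  intro hadj
                  exact hxu (Subtype.ext (hleafw x.1 hadj.symm))
                rw [avail_restrict par F φ w x hnadj, restrict_coe]
              have h3 : avail par F φ u =
                  (avail par F' (Vale.Agent.KK.restrictCopy H F w φ).1 u').erase (φ w) := by
                rw [restrict_coe]
                exact avail_restrict_erase par F φ w u' hwu.symm
              rw [hPsi w φ, h1, h2, h3]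
              have h4 := hGw w φ
              have h5 := hprod0 (Vale.Agent.KK.restrictCopy H F w φ).1
              have h6 := hG0 ((avail par F' (Vale.Agent.KK.restrictCopy H F w φ).1 u').erase (φ w))
              have h7 := hG0 (avail par F φ w)
              calc Gs a Wt (avail par F φ w) *
                    (Gs a Wt ((avail par F' (Vale.Agent.KK.restrictCopy H F w φ).1 u').erase (φ w)) *
                      ∏ x ∈ (univ : Finset ({w}ᶜ : Set W)).erase u',
                        Gs a Wt (avail par F' (Vale.Agent.KK.restrictCopy H F w φ).1 x))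
                  ≤ Wt (φ w) *
                    (Gs a Wt ((avail par F' (Vale.Agent.KK.restrictCopy H F w φ).1 u').erase (φ w)) *
                      ∏ x ∈ (univ : Finset ({w}ᶜ : Set W)).erase u',
                        Gs a Wt (avail par F' (Vale.Agent.KK.restrictCopy H F w φ).1 x)) :=
                    mul_le_mul_of_nonneg_right h4 (mul_nonneg h6 h5)
                _ = hfun (Vale.Agent.KK.restrictCopy H F w φ) := by
                    rw [hhfun]
                    simp only [Vale.Agent.KK.restrictCopy]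
                    ring
            · intro p _
              exact mul_nonneg (hprod0 _) (mul_nonneg (hW0 _) (hG0 _))
        _ = ∑ φ' ∈ S.image (fun φ => (Vale.Agent.KK.restrictCopy H F w φ).1),
              ∑ z ∈ avail par F' φ' u', hfun (φ', z) := by
            rw [Finset.sum_filter, Finset.sum_product]
            apply Finset.sum_congr rfl
            intro φ' _
            rw [← Finset.sum_filter]
            congr 1
            ext z
            simp
        _ ≤ ∑ φ' ∈ S.image (fun φ => (Vale.Agent.KK.restrictCopy H F w φ).1),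
              (1 / a) * Psi par a Wt F' φ' := by
            apply Finset.sum_le_sum
            intro φ' _
            have h1 : ∑ z ∈ avail par F' φ' u', hfun (φ', z) =
                (∏ x ∈ (univ : Finset ({w}ᶜ : Set W)).erase u', Gs a Wt (avail par F' φ' x)) *
                  ∑ z ∈ avail par F' φ' u', Wt z * Gs a Wt ((avail par F' φ' u').erase z) := by
              rw [Finset.mul_sum]
            have h2 : Psi par a Wt F' φ' = Gs a Wt (avail par F' φ' u') *
                ∏ x ∈ (univ : Finset ({w}ᶜ : Set W)).erase u', Gs a Wt (avail par F' φ' x) := by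
              unfold Psi
              rw [← Finset.mul_prod_erase univ _ (mem_univ u')]
            rw [h1, h2]
            have h3 := Gs_step a ha Wt hW0 (avail par F' φ' u')
            calc (∏ x ∈ (univ : Finset ({w}ᶜ : Set W)).erase u', Gs a Wt (avail par F' φ' x)) *
                  ∑ z ∈ avail par F' φ' u', Wt z * Gs a Wt ((avail par F' φ' u').erase z)
                ≤ (∏ x ∈ (univ : Finset ({w}ᶜ : Set W)).erase u', Gs a Wt (avail par F' φ' x)) *
                  ((1 / a) * Gs a Wt (avail par F' φ' u')) :=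
                  mul_le_mul_of_nonneg_left h3 (hprod0 φ')
              _ = _ := by ring
        _ = (1 / a) * ∑ φ' ∈ S.image (fun φ => (Vale.Agent.KK.restrictCopy H F w φ).1),
              Psi par a Wt F' φ' := by
            rw [Finset.mul_sum]
        _ ≤ (1 / a) * ((1 / a) ^ (F.edgeSet.ncard - 1) *
              (∑ v, Wt v) ^ (m - (F.edgeSet.ncard - 1))) :=
            mul_le_mul_of_nonneg_left key ha'
        _ = (1 / a) ^ F.edgeSet.ncard * (∑ v, Wt v) ^ (m + 1 - F.edgeSet.ncard) := by
            rw [← mul_assoc, ← pow_succ']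
            congr 2 <;> omega

end defs

end CC

theorem card_copy_le_of_supersolution {V : Type*} [Fintype V] [DecidableEq V]
    (H : SimpleGraph V) (par : V → Option V) (d : V → ℕ)
    (hd : ∀ u v, par u = some v → d u = d v + 1)
    (hH : ∀ u v, H.Adj u v ↔ (par u = some v ∨ par v = some u))
    (a : ℝ) (ha : 0 < a) (Wt : V → ℝ) (hW0 : ∀ v, 0 ≤ Wt v)
    (hsup : ∀ v, ∑ A ∈ (Finset.univ.filter (fun u => par u = some v)).powerset,
        (A.card.factorial : ℝ) * a ^ A.card * ∏ u ∈ A, Wt u ≤ Wt v)
    (W : Type) [Fintype W] (F : SimpleGraph W) (hF : F.IsAcyclic) :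
    ∃ c, c + F.edgeSet.ncard = Fintype.card W ∧
      (Nat.card (SimpleGraph.Copy F H) : ℝ) ≤
        2 ^ Fintype.card W * (1 / a) ^ F.edgeSet.ncard * (∑ v, Wt v) ^ c := by
  classical
  obtain ⟨hle, hS⟩ := CC.main_claim par H d hd hH a ha Wt hW0 hsup (Fintype.card W) W F rfl hF
  refine ⟨Fintype.card W - F.edgeSet.ncard, by omega, ?_⟩
  rw [Nat.card_eq_fintype_card]
  set g : Copy F H → Finset W := fun φ => univ.filter (fun x => CC.up par F φ x) with hg
  calc (Fintype.card (Copy F H) : ℝ) = ∑ φ : Copy F H, (1 : ℝ) := by simp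
    _ ≤ ∑ φ : Copy F H, CC.Psi par a Wt F φ :=
        Finset.sum_le_sum (fun φ _ => CC.Psi_one_le par a ha.le Wt hW0 F φ)
    _ = ∑ R ∈ (univ : Finset W).powerset,
          ∑ φ ∈ (univ : Finset (Copy F H)).filter (fun φ => g φ = R), CC.Psi par a Wt F φ := by
        rw [Finset.sum_fiberwise_of_maps_to (fun φ _ => mem_powerset.2 (subset_univ _))]
    _ ≤ ∑ R ∈ (univ : Finset W).powerset, (1 / a) ^ F.edgeSet.ncard *
          (∑ v, Wt v) ^ (Fintype.card W - F.edgeSet.ncard) := by
        apply Finset.sum_le_sum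
        intro R _
        apply hS (fun x => x ∈ R)
        intro φ hφ x
        have h1 := (mem_filter.1 hφ).2
        rw [← h1]
        simp [hg]
    _ = 2 ^ Fintype.card W * (1 / a) ^ F.edgeSet.ncard *
          (∑ v, Wt v) ^ (Fintype.card W - F.edgeSet.ncard) := by
        rw [Finset.sum_const, card_powerset, card_univ, nsmul_eq_mul]
        push_cast
        ring

end Vale.Agent.Lib.P064
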