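import Mathlib
import Vale.Agent.KK.PP.Defs
import Vale.Agent.Lib.P064.helper93.FragCount

/-!
# The Park and Pham recursion over halving rounds

The recursion `pp_rec`, the numeric bound `errSum_le` and the final bound `park_pham`.
-/

namespace Vale.Agent.Lib.P064

open Vale.Agent.KK.PP

variable {X : Type*} [Fintype X] [DecidableEq X]

namespace PP3

/-- The weight of `W` relative to the ground set `s`. -/
noncomputable def wt (p : ℝ) (s W : Finset X) : ℝ :=
  p ^ W.card * (1 - p) ^ (s.card - W.card)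

omit [Fintype X] in
theorem wt_insert_of_subset (p : ℝ) {s W : Finset X} {x : X} (hx : x ∉ s) (hW : W ⊆ s) :
    wt p (insert x s) W = (1 - p) * wt p s W := by
  unfold wt
  have h1 : W.card ≤ s.card := Finset.card_le_card hW
  rw [Finset.card_insert_of_notMem hx, Nat.succ_sub h1, pow_succ]
  ring

omit [Fintype X] in
theorem wt_insert_insert (p : ℝ) {s W : Finset X} {x : X} (hx : x ∉ s) (hW : W ⊆ s) :
    wt p (insert x s) (insert x W) = p * wt p s W := by
  unfold wt
  have hxW : x ∉ W := fun h => hx (hW h)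
  rw [Finset.card_insert_of_notMem hx, Finset.card_insert_of_notMem hxW,
    Nat.add_sub_add_right, pow_succ]
  ring

omit [Fintype X] in
theorem wt_union (a b : ℝ) (s : Finset X) : ∀ F : Finset X → ℝ,
    ∑ W₁ ∈ s.powerset, ∑ W₂ ∈ s.powerset, wt a s W₁ * wt b s W₂ * F (W₁ ∪ W₂) =
      ∑ W ∈ s.powerset, wt (a + b - a * b) s W * F W := by
  induction s using Finset.induction_on with
  | empty =>
    intro F
    simp [wt]
  | insert x s hx ih =>
    intro F
    have hL : ∑ W₁ ∈ (insert x s).powerset, ∑ W₂ ∈ (insert x s).powerset,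
        wt a (insert x s) W₁ * wt b (insert x s) W₂ * F (W₁ ∪ W₂) =
        (1 - a) * (1 - b) * (∑ W₁ ∈ s.powerset, ∑ W₂ ∈ s.powerset,
          wt a s W₁ * wt b s W₂ * F (W₁ ∪ W₂))
        + (a + b - a * b) * (∑ W₁ ∈ s.powerset, ∑ W₂ ∈ s.powerset,
          wt a s W₁ * wt b s W₂ * F (insert x (W₁ ∪ W₂))) := by
      simp only [Finset.sum_powerset_insert hx, Finset.mul_sum, ← Finset.sum_add_distrib]
      refine Finset.sum_congr rfl (fun W₁ h₁ => Finset.sum_congr rfl (fun W₂ h₂ => ?_))
      rw [Finset.mem_powerset] at h₁ h₂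
      rw [wt_insert_of_subset a hx h₁, wt_insert_of_subset b hx h₂,
        wt_insert_insert a hx h₁, wt_insert_insert b hx h₂]
      simp only [Finset.union_insert, Finset.insert_union, Finset.insert_idem]
      ring
    have hR : ∑ W ∈ (insert x s).powerset, wt (a + b - a * b) (insert x s) W * F W =
        (1 - (a + b - a * b)) * (∑ W ∈ s.powerset, wt (a + b - a * b) s W * F W)
        + (a + b - a * b) *
          (∑ W ∈ s.powerset, wt (a + b - a * b) s W * F (insert x W)) := by
      rw [Finset.sum_powerset_insert hx, Finset.mul_sum, Finset.mul_sum]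
      congr 1
      · refine Finset.sum_congr rfl (fun W hW => ?_)
        rw [Finset.mem_powerset] at hW
        rw [wt_insert_of_subset _ hx hW]
        ring
      · refine Finset.sum_congr rfl (fun W hW => ?_)
        rw [Finset.mem_powerset] at hW
        rw [wt_insert_insert _ hx hW]
        ring
    rw [hL, hR, ih F, ih (fun W => F (insert x W))]
    ring

/-- The union of two independent random sets is again a random set of the product form. -/
theorem bern_union (a b : ℝ) (f : Finset X → ℝ) :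
    ∑ W₁ : Finset X, ∑ W₂ : Finset X, bern a W₁ * bern b W₂ * f (W₁ ∪ W₂) =
      ∑ W : Finset X, bern (a + b - a * b) W * f W := by
  have h := wt_union a b (Finset.univ : Finset X) f
  rw [Finset.powerset_univ] at h
  have hw : ∀ (p : ℝ) (W : Finset X), wt p Finset.univ W = bern p W := by
    intro p W
    unfold wt bern
    rw [Finset.card_univ]
  simpa only [hw] using h

open Classical in
/-- The mass of the sets that contain no member of `Fam`. -/
noncomputable def failP (b : ℝ) (Fam : Finset (Finset X)) : ℝ :=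
  ∑ W : Finset X, bern b W * (if Hits Fam W then 0 else 1)

omit [Fintype X] [DecidableEq X] in
theorem roundErr_nonneg (x : ℝ) (hx : 0 ≤ x) (m : ℕ) : 0 ≤ roundErr x m := by
  unfold roundErr
  exact Finset.sum_nonneg (fun t _ => mul_nonneg (Nat.cast_nonneg _) (pow_nonneg hx _))

omit [Fintype X] [DecidableEq X] in
theorem errSum_nonneg (x : ℝ) (hx : 0 ≤ x) (r : ℕ) : ∀ m : ℕ, 0 ≤ errSum x r m := by
  induction r with
  | zero => intro m; simp [errSum]
  | succ r ih =>
    intro m
    simp only [errSum]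
    exact add_nonneg (roundErr_nonneg x hx m) (ih _)

omit [DecidableEq X] in
theorem failP_nonneg (b : ℝ) (hb0 : 0 ≤ b) (hb1 : b ≤ 1) (Fam : Finset (Finset X)) :
    0 ≤ failP b Fam := by
  unfold failP
  refine Finset.sum_nonneg (fun W _ => mul_nonneg (bern_nonneg' b hb0 hb1 W) ?_)
  split_ifs <;> norm_num

omit [DecidableEq X] in
open Classical in
theorem failP_le_one (b : ℝ) (hb0 : 0 ≤ b) (hb1 : b ≤ 1) (Fam : Finset (Finset X)) :
    failP b Fam ≤ 1 := by
  unfold failP
  have h1 : ∑ W : Finset X, bern b W * (if Hits Fam W then (0 : ℝ) else 1) ≤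
      ∑ W : Finset X, bern b W := by
    refine Finset.sum_le_sum (fun W _ => ?_)
    have := bern_nonneg' b hb0 hb1 W
    split_ifs <;> nlinarith
  exact h1.trans (le_of_eq (sum_bern' b))

omit [Fintype X] in
theorem frag_subset (Fam : Finset (Finset X)) (W : Finset X) {S : Finset X} (hS : S ∈ Fam) :
    frag Fam W S ⊆ S := by
  obtain ⟨⟨S', hS', hsub, heq⟩, -⟩ := frag_spec Fam W S hS
  rw [heq]
  intro x hx
  rw [Finset.mem_sdiff] at hx
  have := hsub hx.1
  rw [Finset.mem_union] at this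
  exact this.resolve_right hx.2

omit [Fintype X] in
theorem smallFrags_card_le (Fam : Finset (Finset X)) (W : Finset X) (τ : ℕ) :
    ∀ T ∈ smallFrags Fam W τ, T.card ≤ τ := by
  intro T hT
  unfold smallFrags at hT
  exact (Finset.mem_filter.1 hT).2

omit [Fintype X] in
theorem covers_union_large (Fam : Finset (Finset X)) (W : Finset X) (τ : ℕ)
    (Cov : Finset (Finset X)) (h : Covers Cov (smallFrags Fam W τ)) :
    Covers (Cov ∪ largeFrags Fam W τ) Fam := by
  intro S hS
  have hmem : frag Fam W S ∈ Fam.image (frag Fam W) := Finset.mem_image_of_mem _ hS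
  by_cases hc : (frag Fam W S).card ≤ τ
  · have h1 : frag Fam W S ∈ smallFrags Fam W τ := by
      unfold smallFrags
      exact Finset.mem_filter.2 ⟨hmem, hc⟩
    obtain ⟨T, hT, hTs⟩ := h _ h1
    exact ⟨T, Finset.mem_union_left _ hT, hTs.trans (frag_subset Fam W hS)⟩
  · have h1 : frag Fam W S ∈ largeFrags Fam W τ := by
      unfold largeFrags
      exact Finset.mem_filter.2 ⟨hmem, not_le.1 hc⟩
    exact ⟨_, Finset.mem_union_right _ h1, frag_subset Fam W hS⟩

omit [Fintype X] in
theorem hits_of_hits_small (Fam : Finset (Finset X)) (W₁ W₂ : Finset X) (τ : ℕ)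
    (h : Hits (smallFrags Fam W₁ τ) W₂) : Hits Fam (W₁ ∪ W₂) := by
  obtain ⟨T, hT, hTW⟩ := h
  unfold smallFrags at hT
  rw [Finset.mem_filter, Finset.mem_image] at hT
  obtain ⟨⟨S, hS, rfl⟩, -⟩ := hT
  obtain ⟨⟨S', hS', hsub, heq⟩, -⟩ := frag_spec Fam W₁ S hS
  refine ⟨S', hS', ?_⟩
  intro x hx
  by_cases hxW : x ∈ W₁
  · exact Finset.mem_union_left _ hxW
  · refine Finset.mem_union_right _ (hTW ?_)
    rw [heq]
    exact Finset.mem_sdiff.2 ⟨hx, hxW⟩

theorem bern_zero (W : Finset X) : bern (0 : ℝ) W = if W = ∅ then 1 else 0 := by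
  unfold bern
  by_cases h : W = ∅
  · subst h
    simp
  · have : W.card ≠ 0 := by rwa [Ne, Finset.card_eq_zero]
    simp [h, this]

open Classical in
theorem failP_zero (Fam : Finset (Finset X)) :
    failP 0 Fam = if Hits Fam ∅ then 0 else 1 := by
  unfold failP
  rw [Finset.sum_eq_single ∅]
  · rw [bern_zero]
    simp
  · intro W _ hW
    rw [bern_zero, if_neg hW]
    ring
  · intro h
    exact absurd (Finset.mem_univ _) h

omit [Fintype X] [DecidableEq X] in
theorem roundErr_sixteenth_le (m : ℕ) :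
    roundErr (1 / 16) m ≤ (1 / 8) * (1 / 4 : ℝ) ^ (m / 2) := by
  unfold roundErr
  have h1 : ∑ t ∈ Finset.Ioc (m / 2) m, (m.choose t : ℝ) * (1 / 16 : ℝ) ^ t ≤
      ∑ t ∈ Finset.Ioc (m / 2) m, (m.choose t : ℝ) * (1 / 16 : ℝ) ^ (m / 2 + 1) := by
    refine Finset.sum_le_sum (fun t ht => ?_)
    rw [Finset.mem_Ioc] at ht
    refine mul_le_mul_of_nonneg_left ?_ (Nat.cast_nonneg _)
    exact pow_le_pow_of_le_one (by norm_num) (by norm_num) ht.1
  have h2 : ∑ t ∈ Finset.Ioc (m / 2) m, (m.choose t : ℝ) ≤ (2 : ℝ) ^ m := by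
    have h3 : ∑ t ∈ Finset.Ioc (m / 2) m, (m.choose t : ℝ) ≤
        ∑ t ∈ Finset.range (m + 1), (m.choose t : ℝ) := by
      refine Finset.sum_le_sum_of_subset_of_nonneg ?_ (fun t _ _ => Nat.cast_nonneg _)
      intro t ht
      rw [Finset.mem_Ioc] at ht
      exact Finset.mem_range.2 (by omega)
    have h4 : ∑ t ∈ Finset.range (m + 1), (m.choose t : ℝ) = (2 : ℝ) ^ m := by
      have := Nat.sum_range_choose m
      exact_mod_cast this
    linarith
  have h5 : (2 : ℝ) ^ m ≤ 2 * 4 ^ (m / 2) := by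
    have hle : m ≤ 2 * (m / 2) + 1 := by omega
    calc (2 : ℝ) ^ m ≤ 2 ^ (2 * (m / 2) + 1) := pow_le_pow_right₀ (by norm_num) hle
      _ = 2 * 4 ^ (m / 2) := by
        rw [pow_succ, pow_mul]
        norm_num
        ring
  calc ∑ t ∈ Finset.Ioc (m / 2) m, (m.choose t : ℝ) * (1 / 16 : ℝ) ^ t
      ≤ ∑ t ∈ Finset.Ioc (m / 2) m, (m.choose t : ℝ) * (1 / 16 : ℝ) ^ (m / 2 + 1) := h1
    _ = (∑ t ∈ Finset.Ioc (m / 2) m, (m.choose t : ℝ)) * (1 / 16 : ℝ) ^ (m / 2 + 1) := by
        rw [Finset.sum_mul]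
    _ ≤ (2 * 4 ^ (m / 2)) * (1 / 16 : ℝ) ^ (m / 2 + 1) :=
        mul_le_mul_of_nonneg_right (h2.trans h5) (by positivity)
    _ = (1 / 8) * (1 / 4 : ℝ) ^ (m / 2) := by
        rw [pow_succ]
        have h6 : (4 : ℝ) ^ (m / 2) * (1 / 16 : ℝ) ^ (m / 2) = (1 / 4 : ℝ) ^ (m / 2) := by
          rw [← mul_pow]
          norm_num
        linear_combination (1 / 8 : ℝ) * h6

omit [Fintype X] [DecidableEq X] in
theorem errSum_bound (r : ℕ) :
    ∀ m : ℕ, errSum (1 / 16) r m ≤ (1 / 6) * (1 - (1 / 4 : ℝ) ^ m) := by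
  induction r with
  | zero =>
    intro m
    simp only [errSum]
    have : (1 / 4 : ℝ) ^ m ≤ 1 := pow_le_one₀ (by norm_num) (by norm_num)
    nlinarith
  | succ r ih =>
    intro m
    simp only [errSum]
    rcases Nat.eq_zero_or_pos m with rfl | hm
    · have h0 : roundErr (1 / 16 : ℝ) 0 = 0 := by
        unfold roundErr
        simp
      have h1 := ih 0
      simp only [Nat.zero_div, pow_zero, sub_self, mul_zero] at h1 ⊢
      linarith
    · have h1 := roundErr_sixteenth_le m
      have h2 := ih (m / 2)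
      have h3 : (1 / 4 : ℝ) ^ m ≤ (1 / 4 : ℝ) ^ (m / 2 + 1) :=
        pow_le_pow_of_le_one (by norm_num) (by norm_num) (by omega)
      rw [pow_succ] at h3
      linarith

end PP3

open Classical in
theorem pp_rec (p q : ℝ) (hp : 0 ≤ p) (hq : 0 < q) (hq1 : q ≤ 1) (r : ℕ) :
    ∀ (m : ℕ), m < 2 ^ r → ∀ (Fam : Finset (Finset X)), (∀ S ∈ Fam, S.card ≤ m) →
      ∀ c : ℝ, 0 ≤ c →
        (∀ Cov : Finset (Finset X), Covers Cov Fam → c ≤ ∑ T ∈ Cov, p ^ T.card) →
        c * ∑ W : Finset X, bern (1 - (1 - q) ^ r) W * (if Hits Fam W then 0 else 1) ≤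
          errSum (p / q) r m := by
  induction r with
  | zero =>
    intro m hm Fam hFam c hc hcov
    have hm0 : m = 0 := by simpa using hm
    subst hm0
    have h0 : (1 : ℝ) - (1 - q) ^ 0 = 0 := by simp
    rw [h0]
    change c * PP3.failP 0 Fam ≤ errSum (p / q) 0 0
    rw [PP3.failP_zero]
    simp only [errSum]
    by_cases hH : Hits Fam ∅
    · simp [hH]
    · rw [if_neg hH, mul_one]
      have hempty : Fam = ∅ := by
        by_contra hne
        obtain ⟨S, hS⟩ := Finset.nonempty_iff_ne_empty.2 hne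
        have hS0 : S = ∅ := Finset.card_eq_zero.1 (Nat.le_zero.1 (hFam S hS))
        exact hH ⟨S, hS, by rw [hS0]⟩
      have h1 := hcov ∅ (by
        intro S hS
        rw [hempty] at hS
        exact absurd hS (Finset.notMem_empty _))
      simpa using h1
  | succ r ih =>
    intro m hm Fam hFam c hc hcov
    have hτlt : m / 2 < 2 ^ r := by
      apply Nat.div_lt_of_lt_mul
      rw [pow_succ] at hm
      omega
    have h1q0 : 0 ≤ 1 - q := by linarith
    have h1q1 : 1 - q ≤ 1 := by linarith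
    have hpow0 : 0 ≤ (1 - q) ^ r := pow_nonneg h1q0 r
    have hpow1 : (1 - q) ^ r ≤ 1 := pow_le_one₀ h1q0 h1q1
    have hb0 : 0 ≤ 1 - (1 - q) ^ r := by linarith
    have hb1 : 1 - (1 - q) ^ r ≤ 1 := by linarith
    have hbq : (1 : ℝ) - (1 - q) ^ (r + 1) =
        q + (1 - (1 - q) ^ r) - q * (1 - (1 - q) ^ r) := by
      rw [pow_succ]
      ring
    rw [hbq, ← PP3.bern_union]
    have hper : ∀ W₁ : Finset X,
        c * PP3.failP (1 - (1 - q) ^ r) (smallFrags Fam W₁ (m / 2)) ≤
          errSum (p / q) r (m / 2) + ∑ T ∈ largeFrags Fam W₁ (m / 2), p ^ T.card := by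
      intro W₁
      have hcost0 : 0 ≤ ∑ T ∈ largeFrags Fam W₁ (m / 2), p ^ T.card :=
        Finset.sum_nonneg (fun T _ => pow_nonneg hp _)
      have hf0 := PP3.failP_nonneg (1 - (1 - q) ^ r) hb0 hb1 (smallFrags Fam W₁ (m / 2))
      have hf1 := PP3.failP_le_one (1 - (1 - q) ^ r) hb0 hb1 (smallFrags Fam W₁ (m / 2))
      have hIH := ih (m / 2) hτlt (smallFrags Fam W₁ (m / 2))
        (PP3.smallFrags_card_le Fam W₁ (m / 2))
        (max (c - ∑ T ∈ largeFrags Fam W₁ (m / 2), p ^ T.card) 0) (le_max_right _ _) (by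
          intro Cov hCov
          have h1 := hcov _ (PP3.covers_union_large Fam W₁ (m / 2) Cov hCov)
          have h2 : ∑ T ∈ Cov ∪ largeFrags Fam W₁ (m / 2), p ^ T.card ≤
              ∑ T ∈ Cov, p ^ T.card + ∑ T ∈ largeFrags Fam W₁ (m / 2), p ^ T.card := by
            rw [← Finset.sum_union_inter]
            exact le_add_of_nonneg_right (Finset.sum_nonneg (fun T _ => pow_nonneg hp _))
          have h3 : 0 ≤ ∑ T ∈ Cov, p ^ T.card :=
            Finset.sum_nonneg (fun T _ => pow_nonneg hp _)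
          exact max_le (by linarith) h3)
      change max (c - ∑ T ∈ largeFrags Fam W₁ (m / 2), p ^ T.card) 0 *
        PP3.failP (1 - (1 - q) ^ r) (smallFrags Fam W₁ (m / 2)) ≤ errSum (p / q) r (m / 2) at hIH
      have h4 : (c - ∑ T ∈ largeFrags Fam W₁ (m / 2), p ^ T.card) *
          PP3.failP (1 - (1 - q) ^ r) (smallFrags Fam W₁ (m / 2)) ≤
          max (c - ∑ T ∈ largeFrags Fam W₁ (m / 2), p ^ T.card) 0 *
            PP3.failP (1 - (1 - q) ^ r) (smallFrags Fam W₁ (m / 2)) :=
        mul_le_mul_of_nonneg_right (le_max_left _ _) hf0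
      nlinarith
    calc c * ∑ W₁ : Finset X, ∑ W₂ : Finset X,
          bern q W₁ * bern (1 - (1 - q) ^ r) W₂ * (if Hits Fam (W₁ ∪ W₂) then 0 else 1)
        ≤ c * ∑ W₁ : Finset X,
            bern q W₁ * PP3.failP (1 - (1 - q) ^ r) (smallFrags Fam W₁ (m / 2)) := by
          refine mul_le_mul_of_nonneg_left ?_ hc
          refine Finset.sum_le_sum (fun W₁ _ => ?_)
          unfold PP3.failP
          rw [Finset.mul_sum]
          refine Finset.sum_le_sum (fun W₂ _ => ?_)
          rw [mul_assoc]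
          refine mul_le_mul_of_nonneg_left ?_ (bern_nonneg' q hq.le hq1 W₁)
          refine mul_le_mul_of_nonneg_left ?_ (bern_nonneg' _ hb0 hb1 W₂)
          by_cases hH : Hits (smallFrags Fam W₁ (m / 2)) W₂
          · have hH2 := PP3.hits_of_hits_small Fam W₁ W₂ (m / 2) hH
            rw [if_pos hH2, if_pos hH]
          · rw [if_neg hH]
            split_ifs <;> norm_num
      _ = ∑ W₁ : Finset X,
            bern q W₁ * (c * PP3.failP (1 - (1 - q) ^ r) (smallFrags Fam W₁ (m / 2))) := by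
          rw [Finset.mul_sum]
          exact Finset.sum_congr rfl (fun W₁ _ => by ring)
      _ ≤ ∑ W₁ : Finset X, bern q W₁ *
            (errSum (p / q) r (m / 2) + ∑ T ∈ largeFrags Fam W₁ (m / 2), p ^ T.card) :=
          Finset.sum_le_sum (fun W₁ _ =>
            mul_le_mul_of_nonneg_left (hper W₁) (bern_nonneg' q hq.le hq1 W₁))
      _ = errSum (p / q) r (m / 2) +
            ∑ W₁ : Finset X, bern q W₁ * ∑ T ∈ largeFrags Fam W₁ (m / 2), p ^ T.card := by
          simp only [mul_add]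
          rw [Finset.sum_add_distrib, ← Finset.sum_mul, sum_bern', one_mul]
      _ ≤ errSum (p / q) r (m / 2) + roundErr (p / q) m := by
          have h5 := large_cost_le Fam m (m / 2) hFam p q hp hq hq1
          unfold roundErr
          linarith
      _ = errSum (p / q) (r + 1) m := by
          simp only [errSum]
          rw [add_comm]

theorem errSum_le (r m : ℕ) : errSum (1 / 16) r m ≤ 1 / 6 := by
  have h := PP3.errSum_bound r m
  have h0 : (0 : ℝ) ≤ (1 / 4 : ℝ) ^ m := by positivity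
  linarith

open Classical in
theorem park_pham (Fam : Finset (Finset X)) (m r : ℕ) (hm : m < 2 ^ r)
    (hb : ∀ S ∈ Fam, S.card ≤ m) (p : ℝ) (hp : 0 < p) (hp16 : 16 * p ≤ 1)
    (hcov : ∀ Cov : Finset (Finset X), Covers Cov Fam → 1 ≤ ∑ T ∈ Cov, p ^ T.card) :
    (1 : ℝ) / 2 ≤
      ∑ W : Finset X, bern (1 - (1 - 16 * p) ^ r) W * (if Hits Fam W then 1 else 0) := by
  have h16 : (0 : ℝ) < 16 * p := by positivity
  have h := pp_rec p (16 * p) hp.le h16 hp16 r m hm Fam hb 1 zero_le_one hcov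
  have hx : p / (16 * p) = 1 / 16 := by field_simp
  rw [hx, one_mul] at h
  have h2 := errSum_le r m
  have h3 : ∑ W : Finset X, bern (1 - (1 - 16 * p) ^ r) W * (if Hits Fam W then 1 else 0) =
      1 - ∑ W : Finset X, bern (1 - (1 - 16 * p) ^ r) W * (if Hits Fam W then 0 else 1) := by
    have hs := sum_bern' (X := X) (1 - (1 - 16 * p) ^ r)
    rw [eq_sub_iff_add_eq, ← Finset.sum_add_distrib]
    refine Eq.trans (Finset.sum_congr rfl (fun W _ => ?_)) hs
    split_ifs <;> ring
  rw [h3]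
  linarith

end Vale.Agent.Lib.P064
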